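import Vale.Agent.P113.Main

open Set Vale.Agent.P113

theorem Vale.Agent.Results.P113.Full.result :
    ∀ ν : ℝ, 0 < ν → ComputableReal ν →
      ∃ (a : T3) (O : Set T3) (comp : Data → Nat.Partrec.Code)
        (f : (M : Machine) → List (Fin (M.ns + 1)) → ℝ → T3 → Fin 3 → ℝ) (T₀ : ℝ),
        IsOpen O ∧ Computable comp ∧
        (∀ M w, (∀ i, Smooth fun t x => f M w t x i) ∧ Computes (comp (M.data w)) (f M w)) ∧
        (∀ M w, ∃ τ : ℝ, 0 < τ ∧ ∀ t, T₀ ≤ t → f M w (t + τ) = f M w t) ∧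
        (∀ M w M' w' t, T₀ ≤ t → f M w t = f M' w' t) ∧
        ∀ M w, ∃ (u : ℝ → T3 → Fin 3 → ℝ) (p : ℝ → T3 → ℝ),
          (∀ i, Smooth fun t x => u t x i) ∧ Smooth p ∧
          (∀ T, 0 < T → IsClassical ν (f M w) T u p) ∧
          (∀ T, 0 < T → ∀ v q, IsClassical ν (f M w) T v q →
            ∀ t ∈ Icc 0 T, v t = u t ∧ q t = p t) ∧
          (∃ X, IsTrajectory u a X) ∧
          ∀ X, IsTrajectory u a X → ((∃ t, 0 ≤ t ∧ proj (X t) ∈ O) ↔ M.Halts w) := by
  intro ν hν hc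
  obtain ⟨P⟩ := exists_parts
  have hE := eff_force hc P.eff_U
  have hP := fun d => per_force ν (P.per_U d)
  obtain ⟨comp, h1, h2⟩ := exists_compiler hE hP
  have hcl := fun d T (hT : 0 < T) =>
    manufactured ν (fun i => (P.eff_U i).1 d) (P.per_U d) (P.div_U d) (P.U_zero d) hT
  have hl : ∀ d t, 2 ≤ t → ∀ x i, desc (force ν (P.U d) i) t x = desc (force ν P.Wp i) t x :=
    fun d t ht x i => P.force_late ν d i _ (by simp; linarith)
  refine ⟨0, target, comp, fun M w t x i => desc (force ν (P.U (M.data w)) i) t x, 2,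
    isOpen_target, h1, fun M w => ⟨fun i => ?_, h2 _⟩, fun M w => ⟨1, one_pos, fun t ht => ?_⟩,
    fun M w M' w' t ht => ?_, fun M w => ⟨fun t x i => desc (P.U (M.data w) i) t x,
      fun _ _ => 0, fun i => ?_, contDiff_const, hcl _,
      fun T hT v q hv => classical_unique hν.le (hcl _ T hT) hv, ⟨_, (P.traj _).1⟩,
      fun X hX => ?_⟩⟩
  · exact (congrArg (ContDiff ℝ _) (lift_desc (hP _ i))).mpr ((hE i).1 _)
  · funext x i
    exact (hl _ _ (by linarith) x i).trans ((P.force_periodic ν i t _).trans (hl _ _ ht x i).symm)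
  · funext x i
    exact (hl _ _ ht x i).trans (hl _ _ ht x i).symm
  · exact (congrArg (ContDiff ℝ _) (lift_desc (P.per_U _ i))).mpr ((P.eff_U i).1 _)
  · rw [halts_iff, ← P.hit_iff]
    exact exists_congr fun t => and_congr_right fun ht => by rw [(P.traj _).2 X hX t ht]
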